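import Vale.Agent.P254.MathlibUsed

/-!
A class of convex bodies closed under many operations.
-/

open MeasureTheory Set Matrix

namespace Vale.Agent.P254.CC

variable {m n : ℕ}

/-- A convex body. -/
def Body (K : Set (Fin n → ℝ)) : Prop :=
  Convex ℝ K ∧ IsCompact K ∧ (interior K).Nonempty

/-- The integral over `K`. -/
noncomputable def int (K : Set (Fin n → ℝ)) (f : (Fin n → ℝ) → ℝ) : ℝ := ∫ x in K, f x

/-- The volume. -/
noncomputable def vol (K : Set (Fin n → ℝ)) : ℝ := int K fun _ => 1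

/-- The centroid. -/
noncomputable def cen (K : Set (Fin n → ℝ)) : Fin n → ℝ :=
  fun i => (vol K)⁻¹ * int K fun x => x i

/-- The covariance matrix. -/
noncomputable def cov (K : Set (Fin n → ℝ)) : Matrix (Fin n) (Fin n) ℝ :=
  fun i j => (vol K)⁻¹ * int K fun x => (x i - cen K i) * (x j - cen K j)

/-- The isotropic constant `L_K = (det Σ_K / |K|²)^(1/(2n))`. -/
noncomputable def iso (K : Set (Fin n → ℝ)) : ℝ :=
  ((cov K).det / vol K ^ 2) ^ (1 / (2 * (n : ℝ)))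

/-- The convex hull. -/
def hull (s : Set (Fin n → ℝ)) : Set (Fin n → ℝ) := convexHull ℝ s

/-- `S` is an `n`-simplex in `ℝⁿ`. -/
def Simp (S : Set (Fin n → ℝ)) : Prop :=
  ∃ v : Fin (n + 1) → (Fin n → ℝ), AffineIndependent ℝ v ∧ S = hull (range v)

/-- The ellipsoid `{x : (x - b)ᵀ Σ⁻¹ (x - b) ≤ n + 2}`, where `b` and `Σ` are the centroid and
the covariance matrix of `T`. -/
noncomputable def momEll (T : Set (Fin n → ℝ)) : Set (Fin n → ℝ) :=
  {x | (fun i => x i - cen T i) ⬝ᵥ ((cov T)⁻¹ *ᵥ fun i => x i - cen T i) ≤ (n : ℝ) + 2}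

/-- The affine image `A U + b`. -/
def img (A : Matrix (Fin n) (Fin n) ℝ) (b : Fin n → ℝ) (U : Set (Fin n → ℝ)) :
    Set (Fin n → ℝ) := (fun x i => (A *ᵥ x) i + b i) '' U

/-- `K` is a convex body contained in an affine image `U'` of `U` and `|K| ≥ t |U'|`. -/
def Fills (t : ℝ) (K U : Set (Fin n → ℝ)) : Prop :=
  Body K ∧ ∃ (A : Matrix (Fin n) (Fin n) ℝ) (b : Fin n → ℝ), A.det ≠ 0 ∧
    K ⊆ img A b U ∧ t * vol (img A b U) ≤ vol K

/-- `U` is a convex body symmetric with respect to the hyperplanes `xᵢ = 0`, `i ∈ T`. For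
`T = univ` this means unconditional. -/
def SymIn (T : Finset (Fin n)) (U : Set (Fin n → ℝ)) : Prop :=
  Body U ∧ ∀ x ∈ U, ∀ y : Fin n → ℝ,
    (∀ i ∈ T, |y i| = |x i|) → (∀ i, i ∉ T → y i = x i) → y ∈ U

/-- `U` is the unit ball `{x : ∫ |⟨x, v⟩| dμ(v) ≤ 1}` of an `n`-dimensional subspace of `L₁`. -/
def L1Ball (U : Set (Fin n → ℝ)) : Prop :=
  Body U ∧ ∃ μ : Measure (Fin n → ℝ), IsFiniteMeasure μ ∧ Integrable (fun v => ‖v‖) μ ∧
    U = {x | ∫ v, |x ⬝ᵥ v| ∂μ ≤ 1}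

/-- The free sum of `K ⊆ ℝᵐ` and `L ⊆ ℝⁿ` in `ℝᵐ⁺ⁿ`: convex hull of `K × {0}` and `{0} × L`. -/
def freeSum (K : Set (Fin m → ℝ)) (L : Set (Fin n → ℝ)) : Set (Fin (m + n) → ℝ) :=
  hull ((fun x => Fin.append x fun _ => 0) '' K ∪ (fun y => Fin.append (fun _ => 0) y) '' L)

/-- The `U`-sum of the bodies `L i ⊆ ℝ^(d i)`: the `x = (x₁, …, x_m)` such that the vector of the
gauges `(‖x₁‖_{L 1}, …, ‖x_m‖_{L m})` lies in `U`. -/
def uncSum (d : Fin m → ℕ) (L : ∀ i, Set (Fin (d i) → ℝ)) (U : Set (Fin m → ℝ)) :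
    Set (Fin (∑ i, d i) → ℝ) :=
  {x | (fun i => gauge (L i) fun j => x (finSigmaFinEquiv ⟨i, j⟩)) ∈ U}

/-- The slice `{y : (s, y) ∈ K}`. -/
def slice (K : Set (Fin (m + 1) → ℝ)) (s : ℝ) : Set (Fin m → ℝ) :=
  {y | (Fin.cons s y : Fin (m + 1) → ℝ) ∈ K}

/-- The movement `x ↦ x + v(x₁, x₂, …) e₀` along the direction of the coordinate `x₀`. -/
def shift (v : (Fin n → ℝ) → ℝ) (x : Fin (n + 1) → ℝ) : Fin (n + 1) → ℝ :=
  Fin.cons (x 0 + v fun i => x i.succ) fun i => x i.succ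

/-- `Cls n K`: the convex body `K ⊆ ℝⁿ` belongs to the smallest class of convex bodies, in all
dimensions `n ≥ 1`, which contains the bodies (a)-(m) and which is closed under the operations
(1)-(4). -/
inductive Cls : (n : ℕ) → Set (Fin n → ℝ) → Prop
  /-- (a) Bodies filling the part `t` of a body which is symmetric in all but `q` coordinates,
  `40 q log (n + 2) ≤ n` (`q = 0`: unconditional), `t = min (79/80, (1 - 10⁻²⁴)ⁿ)`. -/
  | near {n : ℕ} {K U : Set (Fin n → ℝ)} {T : Finset (Fin n)} (hn : 1 ≤ n) (hU : SymIn T U)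
      (hT : 40 * ((n : ℝ) - T.card) * Real.log (n + 2) ≤ n)
      (h : Fills (min (79 / 80) ((1 - 1 / 10 ^ 24) ^ n)) K U) : Cls n K
  /-- (b) Dimension `≥ 19`: bodies filling `299/300` of a body symmetric in all but one
  coordinates. -/
  | oneFree {n : ℕ} {K U : Set (Fin (n + 1) → ℝ)} (hn : 18 ≤ n)
      (hU : SymIn (Finset.univ.erase 0) U) (h : Fills (299 / 300) K U) : Cls (n + 1) K
  /-- (c) Dimension `≥ 3`: bodies filling `99/100` of a body which is invariant under the changes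
  of sign and the permutations of all coordinates but one (for instance a body of revolution). -/
  | signPerm {n : ℕ} {K U : Set (Fin (n + 1) → ℝ)} (hn : 2 ≤ n)
      (hU : SymIn (Finset.univ.erase 0) U)
      (hp : ∀ σ : Equiv.Perm (Fin (n + 1)), σ 0 = 0 → ∀ x ∈ U, (fun i => x (σ i)) ∈ U)
      (h : Fills (99 / 100) K U) : Cls (n + 1) K
  /-- (d) Bodies filling `79/80` of the unit ball of a subspace of `L₁`. -/
  | l1 {n : ℕ} {K U : Set (Fin n → ℝ)} (hn : 2 ≤ n) (hU : L1Ball U) (h : Fills (79 / 80) K U) :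
      Cls n K
  /-- (e) Bodies filling enough of an ellipsoid (`c = n`) or of a parallelepiped (`c = 12`). -/
  | solid {n : ℕ} {K U : Set (Fin n → ℝ)} {t c : ℝ} (hn : 1 ≤ n)
      (hU : U = {x | x ⬝ᵥ x ≤ 1} ∧ c = n ∨ U = {x | ∀ i, 0 ≤ x i ∧ x i ≤ 1} ∧ c = 12) (h0 : 0 < t)
      (ht : ((n : ℝ) + 1) ^ (n + 1) * (n + 2) ^ n < c ^ n * n.factorial ^ 2 * (t * vol U) ^ 2)
      (h : Fills t K U) : Cls n K
  /-- (f) Bodies nearly filling a simplex. -/
  | nearSimplex {n : ℕ} {K T : Set (Fin n → ℝ)} (hn : 1 ≤ n) (hT : Simp T)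
      (h : Fills (1 - 1 / ((n : ℝ) + 2) ^ (4 * n)) K T) : Cls n K
  /-- (g) Bodies filling `1 - 1/(20(n + 2))` of an unconditional sum of bodies of the class with
  centroid `0` (for instance the sum itself). -/
  | uncSum {m : ℕ} {d : Fin m → ℕ} {L : ∀ i, Set (Fin (d i) → ℝ)} {U : Set (Fin m → ℝ)}
      {K : Set (Fin (∑ i, d i) → ℝ)} (hm : 2 ≤ m) (hL : ∀ i, Cls (d i) (L i))
      (hc : ∀ i j, cen (L i) j = 0) (hU : SymIn Finset.univ U)
      (h : Fills (1 - 1 / (20 * (((∑ i, d i : ℕ) : ℝ) + 2))) K (uncSum d L U)) : Cls (∑ i, d i) K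
  /-- (h) The polytopes with at most `n + 2` vertices. -/
  | fewVertices {n : ℕ} {v : Fin (n + 2) → (Fin n → ℝ)} (hn : 1 ≤ n)
      (hK : Body (hull (range v))) : Cls n (hull (range v))
  /-- (i) Bodies invariant under `k ≥ n - 1` hyperplane reflections with linearly independent
  normals which form a connected system (for instance permutation invariant bodies). -/
  | refl {k n : ℕ} {K : Set (Fin n → ℝ)} {a : Fin k → Fin n → ℝ} (hn : 2 ≤ n) (hk : n ≤ k + 1)
      (hK : Body K) (ha : LinearIndependent ℝ a)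
      (hC : ∀ i j, Relation.ReflTransGen (fun i j => a i ⬝ᵥ a j ≠ 0) i j)
      (hR : ∀ i, ∀ x ∈ K, (fun j => x j - 2 * (a i ⬝ᵥ x) / (a i ⬝ᵥ a i) * a i j) ∈ K) : Cls n K
  /-- (j) The bodies between `T ∩ E` and `T ∪ E`, where `T` is a simplex and `E` its moment
  ellipsoid. -/
  | sandwiched {n : ℕ} {K T : Set (Fin n → ℝ)} (hn : 1 ≤ n) (hK : Body K)
      (hT : Simp T) (h1 : T ∩ momEll T ⊆ K) (h2 : K ⊆ T ∪ momEll T) : Cls n K
  /-- (k) Bodies at small Banach-Mazur distance from a simplex. -/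
  | closeSimplex {n : ℕ} {K T : Set (Fin n → ℝ)} {z : Fin n → ℝ} {r : ℝ} (hn : 1 ≤ n)
      (hK : Body K) (hr0 : 0 < r) (hr : r ≤ 1 + 1 / ((n : ℝ) + 2) ^ 5)
      (hT : Simp T) (h1 : T ⊆ K) (h2 : K ⊆ img (r • 1) z T) : Cls n K
  /-- (m) Bodies invariant under the even permutations of the coordinates. -/
  | alt {n : ℕ} {K : Set (Fin n → ℝ)} (hn : 3 ≤ n) (hK : Body K)
      (hp : ∀ σ : Equiv.Perm (Fin n), Equiv.Perm.sign σ = 1 → ∀ x ∈ K, (fun i => x (σ i)) ∈ K) :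
      Cls n K
  /-- (l) The bodies in `ℝ³` with an affine automorphism of a suitable kind. -/
  | aut {K : Set (Fin 3 → ℝ)} {M : Matrix (Fin 3) (Fin 3) ℝ} {c : Fin 3 → ℝ} (hK : Body K)
      (hM : img M c K = K) (h : 0 < M.det ∧ M * M ≠ 1 ∨ M * M * (M * M) ≠ 1) : Cls 3 K
  /-- (1) Closure under invertible affine maps. -/
  | affine {n : ℕ} {K : Set (Fin n → ℝ)} {A : Matrix (Fin n) (Fin n) ℝ} {b : Fin n → ℝ}
      (hA : A.det ≠ 0) (hK : Cls n K) : Cls n (img A b K)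
  /-- (2) Closure under free sums of bodies containing the origin (an interior or a boundary
  point). -/
  | freeSum {m n : ℕ} {K : Set (Fin m → ℝ)} {L : Set (Fin n → ℝ)} (hK0 : (fun _ => 0) ∈ K)
      (hL0 : (fun _ => 0) ∈ L) (hK : Cls m K) (hL : Cls n L) : Cls (m + n) (freeSum K L)

  /-- (3) Bodies whose slices orthogonal to an axis are in the class, have collinear centroids and
  proportional covariance matrices. -/
  | slices {m : ℕ} {K : Set (Fin (m + 1) → ℝ)} {u v : Fin m → ℝ} {Q : Matrix (Fin m) (Fin m) ℝ}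
      {t : ℝ → ℝ} (hK : Body K) (h1 : ∀ s, Body (slice K s) → Cls m (slice K s))
      (h2 : ∀ s, Body (slice K s) → (∀ i, cen (slice K s) i = u i + s * v i) ∧
        ∀ i j, cov (slice K s) i j = t s * Q i j) : Cls (m + 1) K

  /-- (4) Bodies which lie between two bodies of the class on the path of a movement along the
  chords of one direction. -/
  | move {n : ℕ} {K : Set (Fin (n + 1) → ℝ)} {v : (Fin n → ℝ) → ℝ} {r : ℝ} (hr : 0 < r)
      (hK : Body K) (h1 : Cls (n + 1) (shift v '' K))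
      (h2 : Cls (n + 1) (shift (fun y => -(r * v y)) '' K)) : Cls (n + 1) K

end Vale.Agent.P254.CC
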