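import Vale.Agent.P254.CC.Defs
import Vale.Agent.P254.Bdl.B2
import Vale.Agent.P254.Bdl.B3
import Vale.Agent.P254.Bdl.B4
import Vale.Agent.P254.Bdl.B5
import Vale.Agent.P254.Bdl.B7
import Vale.Agent.P254.Bdl.B10
import Vale.Agent.P254.Bdl.B11
import Vale.Agent.P254.Bdl.B12
import Vale.Agent.P254.Bdl.B13
import Vale.Agent.P254.Bdl.B14
import Vale.Agent.P254.Bdl.B16
import Vale.Agent.P254.Bdl.B17
import Vale.Agent.P254.Bdl.B18
import Vale.Agent.P254.Bdl.B20
import Vale.Agent.P254.Rev.Main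
import Vale.Agent.P254.US.N
import Vale.Agent.P254.Fib.GoodI
import Vale.Agent.P254.Fib.AutTop461
import Vale.Agent.P254.Fib.Alt
import Vale.Agent.P254.Mov.MoveTop393
import Vale.Agent.P254.Refl.Free769

/-!
The strong isotropic constant conjecture for the class `CC.Cls`.
-/

open MeasureTheory Set Matrix

namespace Vale.Agent.P254.CC

open FV

variable {m n : ℕ}

theorem vol_eq (K : Set (Fin n → ℝ)) : vol K = (volume K).toReal := by
  simp [vol, int, Measure.real]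

theorem cen_eq (K : Set (Fin n → ℝ)) : cen K = centroid K := by
  ext i
  simp only [cen, centroid, vol_eq, int]

theorem cov_eq' (K : Set (Fin n → ℝ)) : cov K = covMatrix K := by
  ext i j
  simp only [cov, covMatrix, vol_eq, int, cen_eq]

theorem iso_eq (K : Set (Fin n → ℝ)) : iso K = isoConst K := by
  simp only [iso, isoConst, cov_eq', vol_eq]

theorem momEll_eq (T : Set (Fin n → ℝ)) : momEll T = momentEllipsoid T := by
  simp only [momEll, momentEllipsoid, cen_eq, cov_eq']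
  rfl

theorem of_sandwich (hn : 1 ≤ n) {K T S : Set (Fin n → ℝ)} (hK : IsConvexBody K)
    (hS : IsSimplex S) (hT : IsSimplex T) (h1 : T ∩ momentEllipsoid T ⊆ K)
    (h2 : K ⊆ T ∪ momentEllipsoid T) :
    isoConst K ≤ isoConst S ∧ (isoConst K = isoConst S ↔ IsSimplex K) := by
  obtain ⟨r1, r2⟩ := sandwich hn hK hT h1 h2
  have e : isoConst S = isoConst T := by rw [isoConst_simplex hS, isoConst_simplex hT]
  rw [e]
  refine ⟨r1, fun h3 => ?_, fun h3 => ?_⟩
  · rw [r2.mp h3]; exact hT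
  · rw [isoConst_simplex h3, isoConst_simplex hT]

theorem of_close (hn : 1 ≤ n) {K S : Set (Fin n → ℝ)} (hK : IsConvexBody K) (hS : IsSimplex S)
    (hclose : (∃ T : Set (Fin n → ℝ), IsSimplex T ∧ K ⊆ T ∧
        (1 - 1 / ((n : ℝ) + 2) ^ (4 * n)) * (volume T).toReal ≤ (volume K).toReal) ∨
      (∃ T : Set (Fin n → ℝ), ∃ z : Fin n → ℝ, ∃ r : ℝ, 0 < r ∧ r ≤ 1 + 1 / ((n : ℝ) + 2) ^ 5 ∧
        IsSimplex T ∧ T ⊆ K ∧ K ⊆ (fun x => z + r • x) '' T)) :
    isoConst K ≤ isoConst S ∧ (isoConst K = isoConst S ↔ IsSimplex K) := by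
  obtain ⟨⟨T₀, h1, h2, h3, h4⟩, h5⟩ := main_q hn hK hS hclose
  refine ⟨?_, h5⟩
  have hS0 : 0 ≤ isoConst S := by
    rw [isoConst_simplex hS]
    exact (isoConst_stdS_pos (by omega)).le
  refine h4.trans ?_
  have hT₀ : 0 < (volume T₀).toReal := by
    obtain ⟨A0, b0, hA0, rfl⟩ := h1.exists_aff
    rw [volume_aff_image hA0 b0 isCompact_stdS.measurableSet]
    exact mul_pos (abs_pos.mpr hA0) volume_stdS_pos
  have hT₀fin : volume T₀ ≠ ⊤ := by
    intro h
    rw [h] at hT₀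
    simp at hT₀
  have hle : (volume K).toReal / (volume T₀).toReal ≤ 1 :=
    (div_le_one hT₀).mpr (ENNReal.toReal_mono hT₀fin (measure_mono h2))
  have hn0 : (0 : ℝ) < n := by exact_mod_cast hn
  have : 0 ≤ (1 - (volume K).toReal / (volume T₀).toReal) / (2 * (n : ℝ) ^ 2) :=
    div_nonneg (by linarith) (by positivity)
  nlinarith

theorem ball_conj (hn : 1 ≤ n) {K S : Set (Fin n → ℝ)} (hK : IsConvexBody K) (hS : IsSimplex S)
    {A : Matrix (Fin n) (Fin n) ℝ} {b : Fin n → ℝ} (hA : A.det ≠ 0)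
    (hsub : K ⊆ (fun x => A *ᵥ x + b) '' {x | x ⬝ᵥ x ≤ 1})
    (hvol : ((n : ℝ) + 1) ^ (n + 1) * (n + 2) ^ n * A.det ^ 2 ≤
      n ^ n * n.factorial ^ 2 * (volume K).toReal ^ 2) :
    isoConst K ≤ isoConst S ∧ (isoConst K = isoConst S ↔ IsSimplex K) := by
  have hu : IsUnit A.det := isUnit_iff_ne_zero.2 hA
  refine ell_conj hn hK hS (Q := (A⁻¹)ᵀ * A⁻¹) ?_ b ?_ ?_
  · have h1 := Matrix.PosDef.conjTranspose_mul_self (A⁻¹) (by
      apply Matrix.mulVec_injective_iff_isUnit.mpr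
      rw [Matrix.isUnit_iff_isUnit_det, det_nonsing_inv]
      simpa using hA)
    rwa [conjTranspose_eq_transpose_of_trivial] at h1
  · intro x hx
    obtain ⟨y, hy, rfl⟩ := hsub hx
    simp only [add_sub_cancel_right]
    have e1 : ((A⁻¹)ᵀ * A⁻¹) *ᵥ (A *ᵥ y) = (A⁻¹)ᵀ *ᵥ y := by
      rw [mulVec_mulVec, Matrix.mul_assoc, nonsing_inv_mul _ hu, Matrix.mul_one]
    rw [e1, dotProduct_mulVec, vecMul_transpose, mulVec_mulVec, nonsing_inv_mul _ hu, one_mulVec]
    exact hy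
  · rw [det_mul, det_transpose, det_nonsing_inv, Ring.inverse_eq_inv']
    have h2 : 0 < A.det ^ 2 := by positivity
    have e2 : (volume K).toReal ^ 2 * (A.det⁻¹ * A.det⁻¹) *
        ((n : ℝ) ^ n * (n.factorial : ℝ) ^ 2) =
        (n : ℝ) ^ n * (n.factorial : ℝ) ^ 2 * (volume K).toReal ^ 2 / A.det ^ 2 := by
      field_simp
    rw [e2, le_div_iff₀ h2]
    exact hvol

theorem cube_conj (hn : 1 ≤ n) {K S : Set (Fin n → ℝ)} (hK : IsConvexBody K) (hS : IsSimplex S)
    {A : Matrix (Fin n) (Fin n) ℝ} {b : Fin n → ℝ} (hA : A.det ≠ 0)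
    (hsub : K ⊆ (fun x => A *ᵥ x + b) '' (Icc 0 1))
    (hvol : ((n : ℝ) + 1) ^ (n + 1) * (n + 2) ^ n * A.det ^ 2 <
      12 ^ n * n.factorial ^ 2 * (volume K).toReal ^ 2) :
    isoConst K ≤ isoConst S ∧ (isoConst K = isoConst S ↔ IsSimplex K) := by
  refine lt_conj hS (Par.par_lt hn hK hS hA b hsub ?_)
  rw [volume_aff_image hA b measurableSet_Icc, Real.volume_Icc_pi_toReal zero_le_one]
  simpa [sq_abs] using hvol

/-- the numerical hypothesis for `K` from the one for `t` -/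
theorem solid_num {V W t c D a b : ℝ} (hD : 0 < D) (hW : 0 ≤ W) (h0 : 0 < t) (hc : 0 ≤ c)
    (ht : a < c * (t * W) ^ 2) (hvol : t * (D * W) ≤ V) (hb : b = D ^ 2) :
    a * b < c * V ^ 2 := by
  subst hb
  have h1 : a * D ^ 2 < c * (t * W) ^ 2 * D ^ 2 := by
    have : 0 < D ^ 2 := by positivity
    nlinarith
  have h2 : (t * (D * W)) ^ 2 ≤ V ^ 2 :=
    pow_le_pow_left₀ (by positivity) hvol 2
  have h3 := mul_le_mul_of_nonneg_left h2 hc
  nlinarith

theorem isCompact_ball' : IsCompact {x : Fin n → ℝ | x ⬝ᵥ x ≤ 1} := by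
  refine Metric.isCompact_of_isClosed_isBounded ?_ ?_
  · have : Continuous fun x : Fin n → ℝ => x ⬝ᵥ x := by
      unfold dotProduct
      fun_prop
    exact isClosed_le this continuous_const
  · refine (Metric.isBounded_iff_subset_closedBall 0).2 ⟨1, fun x hx => ?_⟩
    rw [mem_closedBall_zero_iff, pi_norm_le_iff_of_nonneg zero_le_one]
    intro i
    have h1 : x i * x i ≤ x ⬝ᵥ x :=
      Finset.single_le_sum (f := fun i => x i * x i) (fun j _ => mul_self_nonneg _)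
        (Finset.mem_univ i)
    have h2 : x i * x i ≤ 1 := h1.trans hx
    rw [Real.norm_eq_abs]
    nlinarith [abs_nonneg (x i), abs_mul_abs_self (x i)]

theorem good_solid {K U : Set (Fin n → ℝ)} {t c : ℝ} (hn : 1 ≤ n)
    (hU : U = {x | x ⬝ᵥ x ≤ 1} ∧ c = n ∨ U = {x | ∀ i, 0 ≤ x i ∧ x i ≤ 1} ∧ c = 12) (h0 : 0 < t)
    (ht : ((n : ℝ) + 1) ^ (n + 1) * (n + 2) ^ n < c ^ n * n.factorial ^ 2 * (t * vol U) ^ 2)
    (hK : IsConvexBody K) {A : Matrix (Fin n) (Fin n) ℝ} {b : Fin n → ℝ} (hA : A.det ≠ 0)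
    (hsub : K ⊆ (fun x => A *ᵥ x + b) '' U)
    (hvol : t * (volume ((fun x => A *ᵥ x + b) '' U)).toReal ≤ (volume K).toReal) : Good K := by
  rw [vol_eq] at ht
  have hI : {x : Fin n → ℝ | ∀ i, 0 ≤ x i ∧ x i ≤ 1} = Icc 0 1 := by
    ext x
    simp only [mem_ofPred_eq, mem_Icc, Pi.le_def, Pi.zero_apply, Pi.one_apply, forall_and]
  rw [hI] at hU
  have hm : MeasurableSet U := by
    rcases hU with ⟨rfl, _⟩ | ⟨rfl, _⟩
    · exact isCompact_ball'.measurableSet
    · exact measurableSet_Icc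
  have e1 : (volume ((fun x => A *ᵥ x + b) '' U)).toReal = |A.det| * (volume U).toReal :=
    volume_aff_image hA b hm
  rw [e1] at hvol
  have hc : 0 ≤ c := by
    rcases hU with ⟨_, rfl⟩ | ⟨_, rfl⟩
    · positivity
    · norm_num
  have hnum := solid_num (abs_pos.2 hA) ENNReal.toReal_nonneg h0
    (by positivity : 0 ≤ c ^ n * (n.factorial : ℝ) ^ 2) ht hvol (sq_abs A.det).symm
  rcases hU with ⟨rfl, rfl⟩ | ⟨rfl, rfl⟩
  · exact good_of hn hK fun S hS => ball_conj hn hK hS hA hsub hnum.le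
  · exact good_of hn hK fun S hS => cube_conj hn hK hS hA hsub hnum

theorem img_smul_one (r : ℝ) (z : Fin n → ℝ) (T : Set (Fin n → ℝ)) :
    img (r • 1) z T = (fun x => z + r • x) '' T := by
  unfold img
  congr 1
  ext x i
  simp [Matrix.smul_mulVec, add_comm]

theorem Fills.out {t : ℝ} {K U : Set (Fin n → ℝ)} (h : Fills t K U) :
    IsConvexBody K ∧ ∃ (A : Matrix (Fin n) (Fin n) ℝ) (b : Fin n → ℝ), A.det ≠ 0 ∧
      K ⊆ (fun x => A *ᵥ x + b) '' U ∧
      t * (volume ((fun x => A *ᵥ x + b) '' U)).toReal ≤ (volume K).toReal := by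
  obtain ⟨hK, A, b, hA, hsub, hvol⟩ := h
  rw [vol_eq, vol_eq] at hvol
  exact ⟨hK, A, b, hA, hsub, hvol⟩

theorem body_aff {K : Set (Fin n → ℝ)} (hK : IsConvexBody K) {A : Matrix (Fin n) (Fin n) ℝ}
    (hA : A.det ≠ 0) (b : Fin n → ℝ) : IsConvexBody (aff A b '' K) := by
  refine body_of_vol ?_ (isCompact_aff_image A b hK.2.1) ?_
  · rw [← coe_affMap]
    exact hK.1.affine_image _
  · rw [volume_aff_image hA b hK.2.1.measurableSet]
    exact mul_ne_zero (abs_ne_zero.2 hA) (vol_pos hK).ne'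

theorem aff_inv {A : Matrix (Fin n) (Fin n) ℝ} (hA : A.det ≠ 0) (b x : Fin n → ℝ) :
    aff A⁻¹ (-(A⁻¹ *ᵥ b)) (aff A b x) = x := by
  have hu : IsUnit A.det := isUnit_iff_ne_zero.2 hA
  unfold aff
  rw [mulVec_add, mulVec_mulVec, nonsing_inv_mul _ hu, one_mulVec]
  abel

theorem aff_inv' {A : Matrix (Fin n) (Fin n) ℝ} (hA : A.det ≠ 0) (b x : Fin n → ℝ) :
    aff A b (aff A⁻¹ (-(A⁻¹ *ᵥ b)) x) = x := by
  have hu : IsUnit A.det := isUnit_iff_ne_zero.2 hA
  unfold aff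
  rw [mulVec_add, mulVec_mulVec, mul_nonsing_inv _ hu, one_mulVec, mulVec_neg, mulVec_mulVec,
    mul_nonsing_inv _ hu, one_mulVec]
  abel

/-- pull back to `U` -/
theorem Fills.pull {t : ℝ} {K U : Set (Fin n → ℝ)} (h : Fills t K U) (hU : IsCompact U) :
    ∃ (A : Matrix (Fin n) (Fin n) ℝ) (b : Fin n → ℝ) (K' : Set (Fin n → ℝ)), A.det ≠ 0 ∧
      IsConvexBody K' ∧ K' ⊆ U ∧ t * (volume U).toReal ≤ (volume K').toReal ∧
      K = aff A b '' K' := by
  obtain ⟨hK, A, b, hA, hsub, hvol⟩ := h.out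
  have hAi : (A⁻¹).det ≠ 0 := by
    rw [det_nonsing_inv, Ring.inverse_eq_inv']
    exact inv_ne_zero hA
  refine ⟨A, b, aff A⁻¹ (-(A⁻¹ *ᵥ b)) '' K, hA, body_aff hK hAi _, ?_, ?_, ?_⟩
  · rintro _ ⟨x, hx, rfl⟩
    obtain ⟨y, hy, rfl⟩ := hsub hx
    have := aff_inv hA b y
    unfold aff at this ⊢
    rw [this]
    exact hy
  · have e1 : (volume ((fun x => A *ᵥ x + b) '' U)).toReal = |A.det| * (volume U).toReal :=
      volume_aff_image hA b hU.measurableSet
    rw [e1] at hvol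
    rw [volume_aff_image hAi _ hK.2.1.measurableSet, det_nonsing_inv, Ring.inverse_eq_inv',
      abs_inv, inv_mul_eq_div, le_div_iff₀ (abs_pos.2 hA)]
    linarith
  · ext x
    constructor
    · intro hx
      exact ⟨_, ⟨x, hx, rfl⟩, aff_inv' hA b x⟩
    · rintro ⟨_, ⟨y, hy, rfl⟩, rfl⟩
      rw [aff_inv' hA b y]
      exact hy

theorem good_uncSum {m : ℕ} {d : Fin m → ℕ} {L : ∀ i, Set (Fin (d i) → ℝ)} {U : Set (Fin m → ℝ)}
    {K : Set (Fin (∑ i, d i) → ℝ)} (hm : 2 ≤ m) (hL : ∀ i, Good (L i))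
    (hc : ∀ i j, cen (L i) j = 0) (hU : SymIn Finset.univ U)
    (h : Fills (1 - 1 / (20 * (((∑ i, d i : ℕ) : ℝ) + 2))) K (uncSum d L U)) : Good K := by
  have hu : Unc.Uncond U :=
    fun x hx y hy => hU.2 x hx y (fun i _ => hy i) (fun i hi => absurd (Finset.mem_univ i) hi)
  have hc' : ∀ i, centroid (L i) = 0 := fun i => by rw [← cen_eq]; exact funext (hc i)
  have hb : IsConvexBody (P254.uncSum d L U) :=
    US.body_uncSum (fun i => (hL i).one_le) hU.1 hu (fun i => (hL i).body) hc'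
  obtain ⟨A, b, K', hA, hK', hsub, hvol, rfl⟩ := h.pull hb.2.1
  refine Good.aff ?_ hA b
  have h2 := US.Dn_nearSum hm (fun i => (hL i).one_le) hU.1 hu (fun i => (hL i).body) hc'
    (fun i => (hL i).le) hK' hsub hvol
  refine ⟨?_, hK', h2.le, fun h3 => absurd h3 h2.ne⟩
  have h0 : 0 < m := by omega
  exact ((hL ⟨0, h0⟩).one_le).trans (Finset.single_le_sum (f := d)
    (fun _ _ => Nat.zero_le _) (Finset.mem_univ _))

theorem signPerm_of {U : Set (Fin (n + 1) → ℝ)} (hU : SymIn (Finset.univ.erase 0) U)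
    (hp : ∀ σ : Equiv.Perm (Fin (n + 1)), σ 0 = 0 → ∀ x ∈ U, (fun i => x (σ i)) ∈ U) :
    Rev.SignPerm U := by
  intro x hx σ y h0 hk
  have h1 := hp (Equiv.Perm.decomposeFin.symm (0, σ)) (by simp) x hx
  refine hU.2 _ h1 y (fun i hi => ?_) (fun i hi => ?_)
  · obtain ⟨j, rfl⟩ := Fin.exists_succ_eq.2 (Finset.ne_of_mem_erase hi)
    simpa using hk j
  · have : i = 0 := by simpa using hi
    subst this
    simpa using h0

theorem body_slice {m : ℕ} {K : Set (Fin (m + 1) → ℝ)} (hK : Body K) {s : ℝ}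
    (h : (interior (slice K s)).Nonempty) : Body (slice K s) := by
  have hcont : Continuous fun y : Fin m → ℝ => (Fin.cons s y : Fin (m + 1) → ℝ) := by
    refine continuous_pi fun i => ?_
    refine Fin.cases ?_ (fun k => ?_) i
    · simp only [Fin.cons_zero]; fun_prop
    · simp only [Fin.cons_succ]; fun_prop
  refine ⟨?_, ?_, h⟩
  · intro y hy z hz a b ha hb hab
    have h1 := hK.1 hy hz ha hb hab
    show (Fin.cons s (a • y + b • z) : Fin (m + 1) → ℝ) ∈ K
    convert h1 using 1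
    funext i
    refine Fin.cases ?_ (fun k => ?_) i
    · simp only [Fin.cons_zero, Pi.add_apply, Pi.smul_apply, smul_eq_mul]
      rw [← add_mul, hab, one_mul]
    · simp only [Fin.cons_succ, Pi.add_apply, Pi.smul_apply, smul_eq_mul]
  · have e : slice K s = (fun z : Fin (m + 1) → ℝ => fun i : Fin m => z i.succ) ''
        (K ∩ {z | z 0 = s}) := by
      ext y
      constructor
      · intro hy
        exact ⟨Fin.cons s y, ⟨hy, by simp⟩, by ext i; simp⟩
      · rintro ⟨z, ⟨hz, hz0⟩, rfl⟩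
        show (Fin.cons s (fun i : Fin m => z i.succ) : Fin (m + 1) → ℝ) ∈ K
        have : (Fin.cons s (fun i : Fin m => z i.succ) : Fin (m + 1) → ℝ) = z := by
          funext i
          refine Fin.cases ?_ (fun k => ?_) i
          · simpa using hz0.symm
          · simp
        rw [this]
        exact hz
    rw [e]
    exact (hK.2.1.inter_right (isClosed_eq (continuous_apply 0) continuous_const)).image
      (by fun_prop)

theorem good_refl {k n : ℕ} {K : Set (Fin n → ℝ)} {a : Fin k → Fin n → ℝ} (hn : 2 ≤ n)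
    (hk : n ≤ k + 1) (hK : IsConvexBody K) (ha : LinearIndependent ℝ a)
    (hC : ∀ i j, Relation.ReflTransGen (fun i j => a i ⬝ᵥ a j ≠ 0) i j)
    (hR : ∀ i, ∀ x ∈ K, (fun j => x j - 2 * (a i ⬝ᵥ x) / (a i ⬝ᵥ a i) * a i j) ∈ K) : Good K := by
  have h1 : k ≤ n := by
    have := ha.fintype_card_le_finrank
    simpa using this
  rcases Nat.lt_or_ge k n with h2 | h2
  · obtain rfl : n = k + 1 := by omega
    exact Refl.free_good (by omega) hK ha hC hR
  · obtain rfl : k = n := by omega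
    exact Refl.irr_good (by omega) hK ha hC hR

theorem Cls.good {K : Set (Fin n → ℝ)} (h : Cls n K) : Good K := by
  induction h with
  | near hn hU hT h =>
    obtain ⟨hK, A, b, hA, hsub, hvol⟩ := h.out
    exact good_of hn hK fun S hS =>
      let r := EX.near_sym hn hK hS ⟨A, b, _, _, hA, hU.1, hU.2, hT, Or.inl ⟨hsub, hvol⟩⟩
      ⟨r.1, r.2.1⟩
  | oneFree hn hU h =>
    obtain ⟨hK, A, b, hA, hsub, hvol⟩ := h.out
    refine good_of (by omega) hK fun S hS => lt_conj hS ?_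
    refine FV1.sym1_near hn hK hS hU.1 ?_ hA hsub hvol
    intro x hx y h0 hk
    refine hU.2 x hx y (fun i hi => ?_) (fun i hi => ?_)
    · obtain ⟨j, rfl⟩ := Fin.exists_succ_eq.2 (Finset.ne_of_mem_erase hi)
      exact hk j
    · have : i = 0 := by simpa using hi
      rw [this]
      exact h0
  | signPerm hn hU hp h =>
    obtain ⟨hK, A, b, hA, hsub, hvol⟩ := h.out
    exact good_of (by omega) hK fun S hS => lt_conj hS
      (Rev.near_lt hn hK hS hU.1 (signPerm_of hU hp) hA hsub hvol)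
  | l1 hn hU h =>
    obtain ⟨hb, μ, h1, h2, rfl⟩ := hU
    have h3 := hb.2.1.isBounded
    obtain ⟨hK, A, b, hA, hsub, hvol⟩ := h.out
    exact good_of (by omega) hK fun S hS =>
      lt_conj hS (L1.l1_near hn hK hS h2 h3 hA hsub hvol)
  | solid hn hU h0 ht h =>
    obtain ⟨hK, A, b, hA, hsub, hvol⟩ := h.out
    exact good_solid hn hU h0 ht hK hA hsub hvol
  | fewVertices hn hK =>
    exact good_of hn hK fun S hS =>
      let r := few_vertices hn _ hK.2.2 hS
      ⟨r.1, r.2.1⟩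
  | sandwiched hn hK hT h1 h2 =>
    rw [momEll_eq] at h1 h2
    exact good_of hn hK fun S hS =>
      of_sandwich hn hK hS hT h1 h2
  | nearSimplex hn hT h =>
    obtain ⟨hK, A, b, hA, hsub, hvol⟩ := h.out
    exact good_of hn hK fun S hS =>
      of_close hn hK hS (Or.inl ⟨_, isSimplex_aff hT hA b, hsub, hvol⟩)
  | closeSimplex hn hK hr0 hr hT h1 h2 =>
    rw [img_smul_one] at h2
    exact good_of hn hK fun S hS => of_close hn hK hS (Or.inr ⟨_, _, _, hr0, hr, hT, h1, h2⟩)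
  | refl hn hk hK ha hC hR => exact good_refl hn hk hK ha hC hR
  | aut hK hM h => exact Fib.space_aut hK hM h
  | alt hn hK hp => exact Fib.alt_good hn hK hp
  | affine hA _ ih => exact ih.aff hA _
  | freeSum hK0 hL0 _ _ ih1 ih2 => exact ih1.freeSum ih2 hK0 hL0
  | uncSum hm _ hc hU h ih => exact good_uncSum hm ih hc hU h
  | slices hK _ h2 ih =>
    exact Fib.good_fibre hK (fun _ => rfl) (fun s hs => ih s (body_slice hK hs))
      (fun s hs => by rw [← cen_eq]; exact funext (h2 s (body_slice hK hs)).1)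
      (fun s hs => by rw [← cov_eq']; ext i j; exact (h2 s (body_slice hK hs)).2 i j)
  | move hr hK _ _ ih1 ih2 => exact Mov.H393.good_move hr hK ih1 ih2

theorem Cls.top {K S : Set (Fin n → ℝ)} (hK : Cls n K) (hS : Simp S) :
    iso K ≤ iso S ∧ (iso K = iso S ↔ Simp K) := by
  rw [iso_eq, iso_eq]
  exact (Cls.good hK).iso hS

end Vale.Agent.P254.CC
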